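import Vale.Agent.P297.H572.FamEq
import Vale.Agent.P297.H572.CG
import Vale.Agent.P297.H160.C5Disc
import Vale.Agent.P297.H160.C5Twin
import Vale.Agent.P297.H212.C5Gen
import Vale.Agent.P297.H600.KSide
import Vale.Agent.P297.H212.Asm

/-!
The former hand-in `P297.QuinticFamily` (removed from the hand-ins on 24 November, 00:07, because its
surfaces are contained in the family of `P297.GodeauxInvolution`). Its claim file was:

Proves: There is a finite set E of complex numbers, containing no root of c^3-c^2+1, such that for every s in C-E and every field K=C(x,y,z), x,y algebraically independent over C, F(x,y,z,1)=0 (F=famForm s): any two closed points of every integral proper C-scheme with function field K are rationally equivalent, with integral coefficients.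
Definitions: famForm: F(x,y,z,w) is the sum over the 4 cyclic shifts x->y->z->w->x of s^2x^3(s(s^5-s^4-s^3-s^2-2s-1)y+s^2(1-s^2)z+s^4(s^2+s+1)w)^2+px^2y^2z+qx^2y^2w+rx^2z^2y+tx^2yzw, where, as coefficients of s^14,...,s,1, p=(3,-2,1,6,6,10,8,1,-5,-11,-10,-7,-4,-1,0), q=(-1,-2,5,0,-1,5,-5,-9,-3,-7,-5,1,1,0,0), r=(0,4,0,-4,3,-1,-6,2,1,-2,4,2,-2,-1,0), t=(2,-8,2,2,-11,2,5,-2,8,10,8,8,7,4,1). PointsEquivalent K: the conclusion. RatEquiv: [x]-[y] in Rat, generated by IsPrincipalCycle: divisors (divCoeff; Place: DVR, with ord, spec, generic as usual; IsCenter: centre) of functions on normalizations of integral curves (IsCurvePoint). ZeroCycle, ClosedPt, IsFunctionFieldOf (over C, constHom): usual.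
Relation: Partial answer to Q1. By hand, not in Lean: for s^3-s^2+1=0, F is the Craighero-Gattazzo quintic up to a factor; for all but finitely many s the only singular points of F=0 are the vertices, simple elliptic of degree 1. So this is Bloch's conjecture, over Z, for the Craighero-Gattazzo surface and a non-isotrivial 1-parameter family of deformations of it: p_g=q=0, K^2=1, general type, simply connected, K ample for general s (so not Barlow); in none of the listed families.
-/

open IntermediateField Vale.Agent.P297 Vale.Agent.P297.H839 Vale.Agent.P297.H572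
  Vale.Agent.P297.H424

namespace Vale.Agent.P297.Kept.QuinticFamily

theorem result : ∃ E : Finset ℂ, (∀ c : ℂ, c ^ 3 - c ^ 2 + 1 = 0 → c ∉ E) ∧
    ∀ s ∉ E, ∀ (K : Type) [Field K] [Algebra ℂ K] (x y z : K),
      AlgebraicIndependent ℂ ![x, y] → IntermediateField.adjoin ℂ {x, y, z} = ⊤ →
      famForm (algebraMap ℂ K s) x y z 1 = 0 → PointsEquivalent K := by
  classical
  obtain ⟨S1, h1⟩ := nonvan
  obtain ⟨S2, h2⟩ := hor_fin lB2 1 (by decide)
  obtain ⟨S3, h3⟩ := hor_fin lw2 2 (by decide)
  obtain ⟨S4, h4⟩ := H212.generic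
  refine ⟨(S1 ∪ S2 ∪ S3 ∪ S4).filter (fun s => s ^ 3 - s ^ 2 + 1 ≠ 0), ?_, ?_⟩
  · intro c hc h
    exact (Finset.mem_filter.1 h).2 hc
  intro s hs K _ _ x y z hxy htop hF
  by_cases hc : s ^ 3 - s ^ 2 + 1 = 0
  · have hS : (algebraMap ℂ K s) ^ 3 - (algebraMap ℂ K s) ^ 2 + 1 = 0 := by
      rw [← map_pow, ← map_pow, ← map_sub, ← map_one (algebraMap ℂ K), ← map_add, hc, map_zero]
    rw [fam_cg _ _ _ _ _ hS, ← map_pow, ← map_pow] at hF
    have h0 : s ^ 3 * (1 - s ^ 2) ≠ 0 := by
      intro h
      rcases mul_eq_zero.1 h with h | h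
      · have h5 : s = 0 := pow_eq_zero_iff (three_ne_zero) |>.1 h
        rw [h5] at hc
        norm_num at hc
      · have h5 : (1 - s) * (1 + s) = 0 := by linear_combination h
        rcases mul_eq_zero.1 h5 with h | h
        · have h6 : s = 1 := by linear_combination -h
          rw [h6] at hc
          norm_num at hc
        · have h6 : s = -1 := by linear_combination h
          rw [h6] at hc
          norm_num at hc
    have h7 : algebraMap ℂ K (s ^ 3) * (1 - algebraMap ℂ K (s ^ 2)) ≠ 0 := by
      rw [← map_one (algebraMap ℂ K), ← map_sub, ← map_mul]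
      exact (map_ne_zero _).2 h0
    have hcg := (mul_eq_zero.1 hF).resolve_left (pow_ne_zero 2 h7)
    obtain ⟨m, r, θ, hmr, hθ, ht⟩ := H600.quintic_side hc hxy htop hcg
    exact H212.cg_points hc m r θ hmr hθ ht
  have hs' : s ∉ S1 ∪ S2 ∪ S3 ∪ S4 := fun h => hs (Finset.mem_filter.2 ⟨h, hc⟩)
  simp only [Finset.mem_union, not_or] at hs'
  obtain ⟨⟨⟨hs1, hs2⟩, hs3⟩, hs4⟩ := hs'
  rw [← vF_fam] at hF
  obtain ⟨u, ρ, t, θ, hind, hgen, hA, hc⟩ := quintic_side s (h2 s hs2) (h3 s hs3) x y z hxy htop hF
    (h1 s hs1 K x y z hxy hF)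
  obtain ⟨hk, u0, ρ0, l0, v0, hg⟩ := h4 s hs4
  exact H424.main (D s) u ρ t θ hind hgen hA hc (H160.disc_id s) (H160.twin_id s hk) hg

end Vale.Agent.P297.Kept.QuinticFamily
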